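import Vale.Agent.P216LS.PoU
import Vale.Agent.P216MP.Vs
import Vale.Agent.P216R.Flow

/-!
# P216FB: smooth functions on space and on space-time, calculus of the gradient pairing
-/

open scoped Manifold ContDiff Topology
open Set Filter

set_option maxSynthPendingDepth 3
set_option linter.unusedSectionVars false

noncomputable section

namespace Vale.Agent.P216FB

open P216R P216ST P216MP P219.RG
open P210.R2.H53 (gradG gamG lapG)

variable {E : Type} [NormedAddCommGroup E] [NormedSpace ℝ E]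
  {M : Type} [TopologicalSpace M] [ChartedSpace E M]
  {U V : Set M} {I J : Set ℝ} {u v : ℝ → M → ℝ} {φ ψ k : M → ℝ} {x : M} {t c d : ℝ} {F : ℝ → ℝ}

/-! ### functions on space -/

theorem s0_sa (hU : IsOpen U) (h : Sm0 E φ U) (hx : x ∈ U) : SA E φ x :=
  (h x).contDiffAt ((isOpen_dom x hU).mem_nhds (pt_mem_dom hx))

theorem s0_cont (hU : IsOpen U) (h : Sm0 E φ U) : ContinuousOn φ U :=
  fun _ hx => (s0_sa hU h hx).cont.continuousWithinAt

theorem s0_mono (h : Sm0 E φ U) (hV : V ⊆ U) : Sm0 E φ V :=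
  fun a => (h a).mono (inter_subset_inter_right _ (preimage_mono hV))

theorem s0_congr (h : Sm0 E φ U) (e : ∀ x ∈ U, ψ x = φ x) : Sm0 E ψ U :=
  fun a => (h a).congr fun _ hz => e _ hz.2

theorem s0_const (c : ℝ) : Sm0 E (fun _ : M => c) U := fun _ => contDiffOn_const

theorem s0_add (h : Sm0 E φ U) (h' : Sm0 E ψ U) : Sm0 E (fun x => φ x + ψ x) U :=
  fun a => (h a).add (h' a)

theorem s0_sub (h : Sm0 E φ U) (h' : Sm0 E ψ U) : Sm0 E (fun x => φ x - ψ x) U :=
  fun a => (h a).sub (h' a)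

theorem s0_mul (h : Sm0 E φ U) (h' : Sm0 E ψ U) : Sm0 E (fun x => φ x * ψ x) U :=
  fun a => (h a).mul (h' a)

theorem s0_neg (h : Sm0 E φ U) : Sm0 E (fun x => -φ x) U := fun a => (h a).neg

theorem s0_div (h : Sm0 E φ U) (h' : Sm0 E ψ U) (h0 : ∀ x ∈ U, ψ x ≠ 0) :
    Sm0 E (fun x => φ x / ψ x) U := fun a => (h a).div (h' a) fun _ hz => h0 _ hz.2

theorem s0_comp (h : Sm0 E φ U) (hF : ∀ x ∈ U, ContDiffAt ℝ ∞ F (φ x)) :
    Sm0 E (fun x => F (φ x)) U := fun a z hz =>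
  ContDiffAt.comp_contDiffWithinAt (g := F) (f := rd E φ a) z (hF _ hz.2) (h a z hz)

/-! ### functions on space-time -/

theorem sf_slice (h : SmF E u I U) (ht : t ∈ I) : Sm0 E (u t) U :=
  fun a => (h a).comp (f := fun z => (t, z)) (by fun_prop) fun _ hz => ⟨ht, hz⟩

theorem sf_sa (hU : IsOpen U) (h : SmF E u I U) (ht : t ∈ I) (hx : x ∈ U) : SA E (u t) x :=
  s0_sa hU (sf_slice h ht) hx

theorem sf_ps (hU : IsOpen U) (h : SmF E u I U) (ht : t ∈ I) {a : M} {z : E}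
    (hz : z ∈ dom E a U) : PS (fun s => rd E (u s) a) I t z :=
  contDiffWithinAt_univ_of (h a) (isOpen_dom a hU) ht hz

theorem sf_cont [FiniteDimensional ℝ E] [IsManifold 𝓘(ℝ, E) ∞ M] (hU : IsOpen U)
    (h : SmF E u I U) :
    ContinuousOn (fun p : ℝ × M => u p.1 p.2) (I ×ˢ U) := fun _ hp =>
  (PS.continuousWithinAt_rd (sf_ps hU h hp.1 (pt_mem_dom hp.2))).mono
    (prod_mono Subset.rfl (subset_univ _))

theorem sf_time (h : SmF E u I U) (hx : x ∈ U) : ContDiffOn ℝ ∞ (fun s => u s x) I := by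
  have := (h x).comp (f := fun s => (s, pt E x)) (s := I) (by fun_prop)
    fun _ hs => ⟨hs, pt_mem_dom hx⟩
  simpa only [Function.comp_def, rd_pt] using this

theorem sf_has (h : SmF E u I U) (ht : t ∈ I) (hx : x ∈ U) :
    HasDerivWithinAt (fun s => u s x) (derivWithin (fun s => u s x) I t) I t :=
  ((sf_time h hx t ht).differentiableWithinAt (by simp)).hasDerivWithinAt

theorem sf_mono (h : SmF E u I U) (hJ : J ⊆ I) (hV : V ⊆ U) : SmF E u J V :=
  fun a => (h a).mono (prod_mono hJ (inter_subset_inter_right _ (preimage_mono hV)))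

theorem sf_congr (h : SmF E u I U) (e : ∀ t ∈ I, ∀ x ∈ U, v t x = u t x) : SmF E v I U :=
  fun a => (h a).congr fun _ hz => e _ hz.1 _ hz.2.2

theorem sf_const (c : ℝ) : SmF E (fun _ (_ : M) => c) I U := fun _ => contDiffOn_const

theorem sf_of_s0 (h : Sm0 E φ U) (I : Set ℝ) : SmF E (fun _ => φ) I U :=
  fun a => (h a).comp contDiffOn_snd fun _ hb => hb.2

theorem sf_of_time (h : ContDiffOn ℝ ∞ F I) : SmF E (fun s (_ : M) => F s) I U :=
  fun _ => h.comp contDiffOn_fst fun _ hb => hb.1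

theorem sf_add (h : SmF E u I U) (h' : SmF E v I U) : SmF E (fun t x => u t x + v t x) I U :=
  fun a => (h a).add (h' a)

theorem sf_sub (h : SmF E u I U) (h' : SmF E v I U) : SmF E (fun t x => u t x - v t x) I U :=
  fun a => (h a).sub (h' a)

theorem sf_mul (h : SmF E u I U) (h' : SmF E v I U) : SmF E (fun t x => u t x * v t x) I U :=
  fun a => (h a).mul (h' a)

theorem sf_neg (h : SmF E u I U) : SmF E (fun t x => -u t x) I U := fun a => (h a).neg

theorem sf_div (h : SmF E u I U) (h' : SmF E v I U) (h0 : ∀ t ∈ I, ∀ x ∈ U, v t x ≠ 0) :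
    SmF E (fun t x => u t x / v t x) I U :=
  fun a => (h a).div (h' a) fun _ hz => h0 _ hz.1 _ hz.2.2

theorem sf_comp (h : SmF E u I U) (hF : ∀ t ∈ I, ∀ x ∈ U, ContDiffAt ℝ ∞ F (u t x)) :
    SmF E (fun t x => F (u t x)) I U := fun a z hz =>
  ContDiffAt.comp_contDiffWithinAt (g := F) (f := fun p : ℝ × E => rd E (u p.1) a p.2) z
    (hF _ hz.1 _ hz.2.2) (h a z hz)

/-- change of the time variable -/
theorem sf_reparam (h : SmF E u I U) (hF : ContDiffOn ℝ ∞ F J) (hm : MapsTo F J I) :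
    SmF E (fun t => u (F t)) J U := fun a =>
  (h a).comp (f := fun p : ℝ × E => (F p.1, p.2))
    ((hF.comp contDiffOn_fst fun _ hb => hb.1).prodMk contDiffOn_snd) fun _ hb => ⟨hm hb.1, hb.2⟩

/-! ### the gradient pairing -/

variable {g : Ten E M}

theorem sa_diff (h : SA E φ x) : DifferentiableAt ℝ (rd E φ x) (pt E x) :=
  h.differentiableAt (by simp)

theorem d_comp (h : SA E φ x) (hF : HasDerivAt F d (φ x)) :
    fderiv ℝ (rd E (fun y => F (φ y)) x) (pt E x) = d • fderiv ℝ (rd E φ x) (pt E x) := by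
  have h1 : HasDerivAt F d (rd E φ x (pt E x)) := by rwa [rd_pt]
  exact (h1.comp_hasFDerivAt _ (sa_diff h).hasFDerivAt).fderiv

theorem gam_compL (h : SA E φ x) (hF : HasDerivAt F d (φ x)) :
    gam g (fun y => F (φ y)) k x = d * gam g φ k x := by
  simp only [gam, gamG, d_comp h hF, smul_apply, smul_eq_mul]

theorem gam_addL (h : SA E φ x) (h' : SA E ψ x) :
    gam g (fun y => φ y + ψ y) k x = gam g φ k x + gam g ψ k x :=
  congrArg (fun L : E →L[ℝ] ℝ => L _) (fderiv_fun_add (sa_diff h) (sa_diff h'))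

theorem gam_subL (h : SA E φ x) (h' : SA E ψ x) :
    gam g (fun y => φ y - ψ y) k x = gam g φ k x - gam g ψ k x :=
  congrArg (fun L : E →L[ℝ] ℝ => L _) (fderiv_fun_sub (sa_diff h) (sa_diff h'))

theorem gam_negL : gam g (fun y => -φ y) k x = -gam g φ k x :=
  congrArg (fun L : E →L[ℝ] ℝ => L _) (fderiv_fun_neg (f := rd E φ x))

theorem gam_constL (c : ℝ) : gam g (fun _ => c) k x = 0 :=
  congrArg (fun L : E →L[ℝ] ℝ => L _) (hasFDerivAt_const (𝕜 := ℝ) c (pt E x)).fderiv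

theorem gam_mulL (h : SA E φ x) (h' : SA E ψ x) :
    gam g (fun y => φ y * ψ y) k x = φ x * gam g ψ k x + ψ x * gam g φ k x := by
  have := fderiv_fun_mul (sa_diff h) (sa_diff h')
  rw [rd_pt, rd_pt] at this
  exact congrArg (fun L : E →L[ℝ] ℝ => L _) this

theorem gam_const_mulL (c : ℝ) (h : SA E φ x) :
    gam g (fun y => c * φ y) k x = c * gam g φ k x := by
  rw [gam_mulL (sa_const c) h, gam_constL, mul_zero, add_zero]

variable [FiniteDimensional ℝ E] [IsManifold 𝓘(ℝ, E) ∞ M]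

theorem gam_symm (hg : Met g U) (hx : x ∈ U) (φ ψ : M → ℝ) : gam g φ ψ x = gam g ψ φ x := by
  have e : ∀ φ ψ : M → ℝ, gam g φ ψ x = g x (grad g φ x) (grad g ψ x) := fun φ ψ => by
    rw [grad, gradG, co_pt, app_inverse (hg.pos x hx)]; rfl
  rw [e, e, hg.symm x hx]

theorem gam_compR (hg : Met g U) (hx : x ∈ U) (h : SA E φ x) (hF : HasDerivAt F d (φ x)) :
    gam g k (fun y => F (φ y)) x = d * gam g k φ x := by
  rw [gam_symm hg hx, gam_compL h hF, gam_symm hg hx]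

theorem gam_comp2 (hg : Met g U) (hx : x ∈ U) (h : SA E φ x) (hF : HasDerivAt F d (φ x)) :
    gam g (fun y => F (φ y)) (fun y => F (φ y)) x = d ^ 2 * gam g φ φ x := by
  rw [gam_compL h hF, gam_compR hg hx h hF]; ring

theorem gam_addR (hg : Met g U) (hx : x ∈ U) (h : SA E φ x) (h' : SA E ψ x) :
    gam g k (fun y => φ y + ψ y) x = gam g k φ x + gam g k ψ x := by
  simp only [gam_symm hg hx k, gam_addL h h']

theorem gam_subR (hg : Met g U) (hx : x ∈ U) (h : SA E φ x) (h' : SA E ψ x) :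
    gam g k (fun y => φ y - ψ y) x = gam g k φ x - gam g k ψ x := by
  simp only [gam_symm hg hx k, gam_subL h h']

theorem gam_negR (hg : Met g U) (hx : x ∈ U) : gam g k (fun y => -φ y) x = -gam g k φ x := by
  simp only [gam_symm hg hx k, gam_negL]

theorem gam_constR (hg : Met g U) (hx : x ∈ U) (c : ℝ) : gam g k (fun _ => c) x = 0 := by
  rw [gam_symm hg hx, gam_constL]

theorem gam_mulR (hg : Met g U) (hx : x ∈ U) (h : SA E φ x) (h' : SA E ψ x) :
    gam g k (fun y => φ y * ψ y) x = φ x * gam g k ψ x + ψ x * gam g k φ x := by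
  simp only [gam_symm hg hx k, gam_mulL h h']

theorem gam_const_mulR (hg : Met g U) (hx : x ∈ U) (c : ℝ) (h : SA E φ x) :
    gam g k (fun y => c * φ y) x = c * gam g k φ x := by
  simp only [gam_symm hg hx k, gam_const_mulL c h]

/-- the product rule for the Laplacian -/
theorem lap_mul (hg : Met g U) (hx : x ∈ U) (h : SA E φ x) (h' : SA E ψ x) :
    lap g (fun y => φ y * ψ y) x = φ x * lap g ψ x + ψ x * lap g φ x + 2 * gam g φ ψ x := by
  have sq : ∀ {f : M → ℝ}, SA E f x →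
      lap g (fun y => f y ^ 2) x = 2 * f x * lap g f x + 2 * gam g f f x := fun {f} hf =>
    lap_comp (η := fun s => s ^ 2) (η1 := fun s => 2 * s) hf
      (.of_forall fun s => by simpa using hasDerivAt_pow 2 s)
      (by simpa using (hasDerivAt_id (f x)).const_mul 2)
  have a := h.add h'
  have e : (fun y => φ y * ψ y) = fun y => 2⁻¹ * ((φ y + ψ y) ^ 2 - φ y ^ 2 - ψ y ^ 2) := by
    funext y; ring
  have k1 := sq (f := fun y => φ y + ψ y) a
  rw [lap_add h h', gam_addL h h', gam_addR hg hx h h', gam_addR hg hx h h',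
    gam_symm hg hx ψ φ] at k1
  rw [e, lap_const_mul _ (((a.pow 2).sub (h.pow 2)).sub (h'.pow 2)),
    lap_sub (f := fun y => (φ y + ψ y) ^ 2 - φ y ^ 2) (k := fun y => ψ y ^ 2)
      ((a.pow 2).sub (h.pow 2)) (h'.pow 2),
    lap_sub (f := fun y => (φ y + ψ y) ^ 2) (k := fun y => φ y ^ 2) (a.pow 2) (h.pow 2), k1, sq h,
    sq h']
  ring

theorem s0_iff (hU : IsOpen U) : Sm0 E φ U ↔ ∀ x ∈ U, SA E φ x :=
  ⟨fun h _ hx => s0_sa hU h hx, fun h => (P216LS.sm0_iff hU).2 fun x hx => (h x hx).contMDiffAt⟩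

theorem s0_iff' (hU : IsOpen U) : Sm0 E φ U ↔ ContMDiffOn 𝓘(ℝ, E) 𝓘(ℝ, ℝ) ∞ φ U :=
  P216LS.sm0_iff' hU

theorem rd_gam' (hg : Met g U) {a : M} {z : E} (hz : z ∈ dom E a U) (h : Sm0 E φ U)
    (h' : Sm0 E ψ U) : rd E (gam g φ ψ) a z = gamG (co g a) (rd E φ a) (rd E ψ a) z :=
  P216LS.gam_comp hg (ld_symm a) hz.1 hz.2 (s0_sa hg.isOpen h hz.2).contMDiffAt
    (s0_sa hg.isOpen h' hz.2).contMDiffAt

theorem rd_lap' (hg : Met g U) {a : M} {z : E} (hz : z ∈ dom E a U) (h : Sm0 E φ U) :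
    rd E (lap g φ) a z = lapG (co g a) (rd E φ a) z := by
  have := (li_comap hg (ld_symm a) hz.1 hz.2).lap
    ((s0_sa hg.isOpen h hz.2).of_le (by norm_cast))
  rw [lap_model] at this
  exact this.symm

theorem sf_gam {g : ℝ → Ten E M} (hg : Fam g I U) (h : SmF E u I U) (h' : SmF E v I U) :
    SmF E (fun s => gam (g s) (u s) (v s)) I U := fun a =>
  (contDiffOn_of_ps (f := fun s => gamG (co (g s) a) (rd E (u s) a) (rd E (v s) a))
    fun _ hs _ hz => (hg.ps hs hz).gamG hs (hg.co_pos hs hz) (sf_ps hg.isOpen h hs hz)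
      (sf_ps hg.isOpen h' hs hz)).congr fun _ hb =>
    rd_gam' (hg.met hb.1) hb.2 (sf_slice h hb.1) (sf_slice h' hb.1)

theorem sf_lap {g : ℝ → Ten E M} (hg : Fam g I U) (h : SmF E u I U) :
    SmF E (fun s => lap (g s) (u s)) I U := fun a =>
  (contDiffOn_of_ps (f := fun s => lapG (co (g s) a) (rd E (u s) a)) fun _ hs _ hz =>
    (hg.ps hs hz).lapG hs (hg.co_pos hs hz) (sf_ps hg.isOpen h hs hz)).congr fun _ hb =>
    rd_lap' (hg.met hb.1) hb.2 (sf_slice h hb.1)

theorem sf_Sc {g : ℝ → Ten E M} (hg : Fam g I U) : SmF E (fun s => Sc (g s)) I U := hg.smooth_Sc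

theorem fam_const (hg : Met g U) (I : Set ℝ) : Fam (fun _ => g) I U :=
  ⟨hg.isOpen, fun _ _ => hg.symm, fun _ _ => hg.pos,
    fun a => (hg.smooth a).comp contDiffOn_snd fun _ hb => hb.2⟩

theorem s0_gam (hg : Met g U) (h : Sm0 E φ U) (h' : Sm0 E ψ U) : Sm0 E (gam g φ ψ) U :=
  P216LS.sm0_gam hg h h'

theorem s0_lap (hg : Met g U) (h : Sm0 E φ U) : Sm0 E (lap g φ) U :=
  sf_slice (sf_lap (fam_const hg univ) (sf_of_s0 h univ)) (mem_univ 0)

theorem s0_Sc (hg : Met g U) : Sm0 E (Sc g) U :=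
  sf_slice (sf_Sc (fam_const hg univ)) (mem_univ 0)

end Vale.Agent.P216FB
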