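import Vale.Agent.P216R.SF
import Vale.Agent.P216SG.Defs
import Vale.Agent.P216ST.Stmt
import Vale.Agent.P216DC.Defs
import Vale.Agent.P216MP.Vs

/-!
# P216FB: heat histories through surgeries, regions, and the statements about them
-/

open scoped Manifold ContDiff Topology ENNReal
open Set MeasureTheory Metric Real

set_option maxSynthPendingDepth 3

noncomputable section

namespace Vale.Agent.P216FB

open Vale.Agent.P216R Vale.Agent.P216SG Vale.Agent.P216ST Vale.Agent.P216DC Vale.Agent.P216MP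

section defs

variable {M : Type} [TopologicalSpace M] [ChartedSpace E3 M]

/-- the collar of a surgery neck -/
def col : Set E3 := ann (exp (-20)) 2

/-- one cap `ψ` glued into the neck `φ`; the new points contain an unmodified collar -/
structure Cap1 (g : Ten E3 M) (U U' : Set M) (φ ψ : E3 → M) (h : ℝ) : Prop where
  pos : 0 < h
  nk : Emb φ col U
  cp : Emb ψ (ball 0 2) U'
  eq : ∀ x ∈ ann 1 2, ψ x = φ x
  new : ∀ x ∈ closedBall (0 : E3) 1, ψ x ∉ U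
  met : ∀ x ∈ col, comap ψ g x = comap φ g x
  lo : ∀ x ∈ col, ∀ v, h ^ 2 * ‖v‖ ^ 2 ≤ ‖x‖ ^ 2 * comap φ g x v v
  hi : ∀ x ∈ col, ∀ v, ‖x‖ ^ 2 * comap φ g x v v ≤ 3 * h ^ 2 * ‖v‖ ^ 2

/-- the new points of `U'` are caps with collars -/
def Caps (g : Ten E3 M) (U U' : Set M) : Prop :=
  ∃ J : Set ((E3 → M) × (E3 → M) × ℝ), (∀ j ∈ J, Cap1 g U U' j.1 j.2.1 j.2.2) ∧
    (J.Pairwise fun i j => Disjoint (i.2.1 '' closedBall 0 1) (j.2.1 '' closedBall 0 1)) ∧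
    ∀ x ∈ U', x ∉ U → ∃ j ∈ J, x ∈ j.2.1 '' closedBall 0 1

/-- caps with collars whose volume is small compared to the volume drop -/
structure Col [MeasurableSpace M] (g : Ten E3 M) (U U' : Set M) (ε : ℝ) : Prop where
  caps : Caps g U U'
  drop : vol g (U' \ U) + ENNReal.ofReal ε * vol g U' ≤ ENNReal.ofReal ε * vol g U

/-- `u` is a smooth solution of the heat equation on `[a, c] × U` -/
structure Ht (g : ℝ → Ten E3 M) (a c : ℝ) (U : Set M) (u : ℝ → M → ℝ) : Prop where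
  sm : SmF E3 u (Icc a c) U
  eqn : ∀ t ∈ Icc a c, ∀ x ∈ U,
    HasDerivWithinAt (fun s => u s x) (lap (g t) (u t) x) (Icc a c) t

/-- the bounds for a weight of age `τ` on a slice -/
structure Wb (g : Ten E3 M) (U : Set M) (τ : ℝ) (u : M → ℝ) : Prop where
  pos : ∀ x ∈ U, 0 < u x
  le : ∀ x ∈ U, u x ≤ 1
  grad : ∀ x ∈ U, τ * gam g u u x ≤ u x ^ 2 * log (2 / u x)

/-- a history: a solution of the heat equation between the surgeries in `[s₁, T]` -/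
structure Hist [MeasurableSpace M] (g : ℝ → Ten E3 M) (b d : M → ℝ) (s₁ T V : ℝ)
    (u : ℝ → M → ℝ) : Prop where
  ht : ∀ a c, s₁ ≤ a → a < c → c ≤ T → Gap b d a c → Ht g a c (Liv b d a c) u
  wb : ∀ U t, Sl b d s₁ T U t → Wb (g t) U (t - s₁) (u t)
  mass : ∀ U t, Sl b d s₁ T U t → ∫ x in U, (1 - u t x) ∂vol (g t) ≤ V

/-- the constant for going backward in time inside a region -/
def cD (a : ℝ) : ℝ := 100 * (1 + a) ^ 2 * exp (10 * a ^ 2)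

/-- a family of regions of space-time at times `≥ t₁`; `N A t y` reads `D(y, t) ≤ A` -/
structure Rg (g : ℝ → Ten E3 M) (b d : M → ℝ) (T₀ T₁ t₁ r₀ : ℝ) (N : ℝ → ℝ → M → Prop) :
    Prop where
  mono : ∀ {A A' t : ℝ} {y : M}, A ≤ A' → N A t y → N A' t y
  lip : ∀ {U : Set M} {A t r : ℝ} {y z : M}, Sl b d T₀ T₁ U t → N A t y →
    z ∈ bl (g t) U y r → N (A + r) t z
  back : ∀ {U : Set M} {A t s ρ σ K a : ℝ} {y : M}, Sl b d T₀ T₁ U t → y ∈ U → N A t y →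
    0 < ρ → ρ ≤ r₀ → 0 ≤ a → K * ρ ^ 2 ≤ a → σ ≤ a * ρ ^ 2 → ParB g U y t ρ σ K →
    s ∈ Icc (t - σ) t → t₁ ≤ s → N (A + cD a * ρ) s y

/-- the lower bound for the histories -/
def mA (A : ℝ) : ℝ := 2 * exp (-exp (2 * A))

/-- the region defined by the histories that start at the time `t₀ - r₀ ^ 2` -/
def Rn [MeasurableSpace M] (g : ℝ → Ten E3 M) (b d : M → ℝ) (T₁ t₀ r₀ V : ℝ) (A t : ℝ) (y : M) :
    Prop :=
  t ∈ Icc (t₀ - r₀ ^ 2 / 2) t₀ ∧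
    ∀ u, Hist g b d (t₀ - r₀ ^ 2) (min T₁ (t₀ + r₀ ^ 2)) V u → mA (A / r₀) ≤ u t y

theorem rg_univ (g : ℝ → Ten E3 M) (b d : M → ℝ) (T₀ T₁ t₁ r₀ : ℝ) :
    Rg g b d T₀ T₁ t₁ r₀ fun _ _ _ => True :=
  ⟨fun _ _ => trivial, fun _ _ _ => trivial, fun _ _ _ _ _ _ _ _ _ _ _ => trivial⟩

end defs

/-- the Bochner inequality along a Ricci flow -/
def BOCH : Prop :=
  ∀ (M : Type) [TopologicalSpace M] [ChartedSpace E3 M] [IsManifold 𝓘(ℝ, E3) ∞ M]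
    (g : ℝ → Ten E3 M) (U : Set M) (a c : ℝ) (f f' : ℝ → M → ℝ), a < c → RF g (Icc a c) U →
    Hs U → SmF E3 f (Icc a c) U →
    (∀ t ∈ Icc a c, ∀ x ∈ U, HasDerivWithinAt (fun s => f s x) (f' t x) (Icc a c) t) →
    ∀ t ∈ Icc a c, ∀ x ∈ U, ∃ D, HasDerivWithinAt (fun s => gam (g s) (f s) (f s) x) D (Icc a c) t ∧
      D - lap (g t) (gam (g t) (f t) (f t)) x ≤
        2 * gam (g t) (f t) (fun y => f' t y - lap (g t) (f t) y) x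

/-- the gradient estimate of Hamilton -/
def HAM : Prop :=
  ∀ (M : Type) [TopologicalSpace M] [ChartedSpace E3 M] [IsManifold 𝓘(ℝ, E3) ∞ M]
    (g : ℝ → Ten E3 M) (U : Set M) (a c s₁ : ℝ) (u : ℝ → M → ℝ), s₁ ≤ a → a < c →
    RF g (Icc a c) U → IsCompact U → Hs U → Ht g a c U u → Wb (g a) U (a - s₁) (u a) →
    ∀ t ∈ Icc a c, Wb (g t) U (t - s₁) (u t)

/-- growth of the integral of a nonnegative solution of the heat equation -/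
def MASS : Prop :=
  ∀ (M : Type) [TopologicalSpace M] [ChartedSpace E3 M] [IsManifold 𝓘(ℝ, E3) ∞ M]
    [MeasurableSpace M] [BorelSpace M] (g : ℝ → Ten E3 M) (U : Set M) (a c R₀ : ℝ)
    (u : ℝ → M → ℝ), a < c → RF g (Icc a c) U → IsCompact U → Hs U → Ht g a c U u →
    (∀ t ∈ Icc a c, ∀ x ∈ U, 0 ≤ u t x ∧ -R₀ ≤ Sc (g t) x) →
    ∫ x in U, u c x ∂vol (g c) ≤ exp (R₀ * (c - a)) * ∫ x in U, u a x ∂vol (g a)

/-- extension of a weight over the caps -/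
def CLAMP : Prop :=
  ∀ (M : Type) [TopologicalSpace M] [ChartedSpace E3 M] [IsManifold 𝓘(ℝ, E3) ∞ M]
    (g : Ten E3 M) (U U' : Set M) (τ : ℝ) (u : M → ℝ), 0 < τ → Met g U → Met g U' →
    Caps g U U' → Sm0 E3 u U → Wb g U τ u →
    ∃ u', Sm0 E3 u' U' ∧ Wb g U' τ u' ∧ ∀ x, x ∉ U' \ U → u' x = u x

/-- existence of histories -/
def HEX : Prop :=
  ∀ (M : Type) [TopologicalSpace M] [ChartedSpace E3 M] [IsManifold 𝓘(ℝ, E3) ∞ M]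
    [MeasurableSpace M] [BorelSpace M] (g : ℝ → Ten E3 M) (b d : M → ℝ)
    (T₀ T₁ s₁ T ε R₀ V : ℝ) (u₀ : M → ℝ), SF g b d T₀ T₁ → T₀ ≤ s₁ → s₁ < T → T ≤ T₁ →
    0 ≤ ε → 0 ≤ R₀ → (∀ t ∈ Ioo s₁ T, Col (g t) (preS b d t) (postS b d t) ε) →
    (∀ U t, Sl b d s₁ T U t → ∀ x ∈ U, -R₀ ≤ Sc (g t) x) →
    Sm0 E3 u₀ (postS b d s₁) → (∀ x ∈ postS b d s₁, 0 < u₀ x ∧ u₀ x ≤ 1) →
    exp (R₀ * (T - s₁)) * ∫ x in postS b d s₁, (1 + ε - u₀ x) ∂vol (g s₁) ≤ V →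
    ∃ u, Hist g b d s₁ T V u ∧ u s₁ = u₀

/-- the local barrier: a Lipschitz supersolution cannot be large in the past -/
def BAR : Prop :=
  ∀ (M : Type) [TopologicalSpace M] [ChartedSpace E3 M] [IsManifold 𝓘(ℝ, E3) ∞ M]
    (g : ℝ → Ten E3 M) (U : Set M) (y : M) (t ρ σ K a c₀ : ℝ) (q : ℝ → M → ℝ),
    Met (g t) U → Hs U → y ∈ U → Cpt (g t) U y ρ → 0 < ρ → 0 < σ → 0 ≤ a → K * ρ ^ 2 ≤ a →
    σ ≤ a * ρ ^ 2 → 0 ≤ c₀ → c₀ * ρ ≤ 1 → ParB g U y t ρ σ K →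
    ContinuousOn (fun p : ℝ × M => q p.1 p.2) (Icc (t - σ) t ×ˢ bl (g t) U y ρ) →
    (∀ s ∈ Ioc (t - σ) t, ∀ z ∈ bl (g t) U y ρ, Vs (g s) q s z (-c₀)) →
    (∀ s ∈ Icc (t - σ) t, ∀ z ∈ bl (g t) U y ρ,
      q s y ≤ q s z + dd (g s) (bl (g t) U y ρ) y z) →
    q (t - σ) y ≤ q t y + cD a * ρ

/-- the regions defined by histories are regions -/
def RGN : Prop :=
  ∀ (M : Type) [TopologicalSpace M] [ChartedSpace E3 M] [IsManifold 𝓘(ℝ, E3) ∞ M]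
    [MeasurableSpace M] [BorelSpace M] (g : ℝ → Ten E3 M) (b d : M → ℝ) (T₀ T₁ t₀ r₀ V : ℝ),
    SF g b d T₀ T₁ → 0 < r₀ → T₀ ≤ t₀ - r₀ ^ 2 → t₀ ≤ T₁ →
    Rg g b d T₀ T₁ (t₀ - r₀ ^ 2 / 2) r₀ (Rn g b d T₁ t₀ r₀ V)

/-- the centre of a thick ball lies in the region -/
def RG0 : Prop :=
  ∀ (M : Type) [TopologicalSpace M] [ChartedSpace E3 M] [IsManifold 𝓘(ℝ, E3) ∞ M]
    [MeasurableSpace M] [BorelSpace M] (g : ℝ → Ten E3 M) (b d : M → ℝ) (T₀ T₁ t₀ r₀ w : ℝ)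
    (U : Set M) (x : M), SF g b d T₀ T₁ → 0 < r₀ → T₀ ≤ t₀ - r₀ ^ 2 → Sl b d T₀ T₁ U t₀ →
    0 < w → Vl w (g t₀) U x r₀ → Rn g b d T₁ t₀ r₀ (w * r₀ ^ 3 / 4) (2 * r₀) t₀ x

end Vale.Agent.P216FB
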