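import Vale.Agent.P216FB.Defs
import Vale.Agent.P216L.Bar
import Vale.Agent.P216BF.Ball

/-!
# P216FB: the local barrier
-/

open scoped Manifold ContDiff Topology ENNReal
open Set Filter Real

set_option maxSynthPendingDepth 3

noncomputable section

namespace Vale.Agent.P216FB

open Vale.Agent.P216R Vale.Agent.P216BF Vale.Agent.P216MP

section

variable {E : Type} [NormedAddCommGroup E] [NormedSpace ℝ E] [FiniteDimensional ℝ E]
  {M : Type} [TopologicalSpace M] [ChartedSpace E M] {g : ℝ → Ten E M} {V : Set M} {y z : M}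
  {a b s t κ : ℝ}

theorem rf_dd_le (h : RF g (Icc a b) V) (hK : RicB g (Icc a b) V κ) (hs : s ∈ Icc a b)
    (ht : t ∈ Icc a b) (hf : ed (g t) V y z ≠ ⊤) :
    dd (g s) V y z ≤ exp (κ * |s - t|) * dd (g t) V y z :=
  dd_le_of_ed (exp_pos _).le hf (rf_ed_le h hK hs ht y z)

/-- the distance from a point is jointly continuous when the Ricci curvature is bounded -/
theorem cont_dd [IsManifold 𝓘(ℝ, E) ∞ M] (h : RF g (Icc a b) V) (hK : RicB g (Icc a b) V κ)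
    (hf : ∀ s ∈ Icc a b, ∀ z ∈ V, ed (g s) V y z ≠ ⊤) :
    ContinuousOn (fun p : ℝ × M => dd (g p.1) V y p.2) (Icc a b ×ˢ V) := fun p hp => by
  have h1 : ContinuousAt (fun q : ℝ × M => dd (g p.1) V y q.2) p :=
    ((h.toFam.met hp.1).continuousAt_dd_right (hf _ hp.1 _ hp.2)).comp continuousAt_snd
  have h2 : ContinuousAt (fun q : ℝ × M => exp (κ * |q.1 - p.1|)) p := by fun_prop
  refine tendsto_of_tendsto_of_tendsto_of_le_of_le'
    (tendsto_nhdsWithin_of_tendsto_nhds (by simpa using (h1.div h2 (exp_pos _).ne').tendsto))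
    (tendsto_nhdsWithin_of_tendsto_nhds (by simpa using (h2.mul h1).tendsto)) ?_ ?_
  · filter_upwards [self_mem_nhdsWithin] with q hq
    rw [Pi.div_apply, div_le_iff₀' (exp_pos _), abs_sub_comm]
    exact rf_dd_le h hK hp.1 hq.1 (hf _ hq.1 _ hq.2)
  · filter_upwards [self_mem_nhdsWithin] with q hq
    exact rf_dd_le h hK hq.1 hp.1 (hf _ hp.1 _ hq.2)

end

theorem cD_ge {a : ℝ} (ha : 0 ≤ a) : 1 / 8 + a + (7 + a) * a * (2 * exp (2 * a ^ 2)) ≤ cD a := by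
  have h1 : exp (2 * a ^ 2) ≤ exp (10 * a ^ 2) := exp_le_exp.2 (by nlinarith)
  have h2 : 1 ≤ exp (10 * a ^ 2) := one_le_exp (by positivity)
  have h3 : (7 + a) * a * (2 * exp (2 * a ^ 2)) ≤ (7 + a) * a * (2 * exp (10 * a ^ 2)) := by gcongr
  have h4 : (1 / 8 + a) * 1 ≤ (1 / 8 + a) * exp (10 * a ^ 2) := by gcongr
  have h5 : (1 / 8 + a + (7 + a) * a * 2) * exp (10 * a ^ 2) ≤ cD a :=
    mul_le_mul_of_nonneg_right (by nlinarith) (exp_pos _).le
  linarith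

theorem bar : BAR := by
  intro M _ _ _ g U y t ρ σ K a c₀ q hg hH hy hc hρ hσ ha hKa hσa hc₀ hcρ hP hq hv hl
  have hR := ricB_of_parB finrank_E3 hP
  obtain ⟨hf, hm⟩ := hP
  have ho := hg.isOpen_bl y ρ
  have hVU : bl (g t) U y ρ ⊆ U := bl_subset
  have hyV := mem_bl_self (g := g t) hy hρ
  have ht : t ∈ Icc (t - σ) t := ⟨by linarith, le_rfl⟩
  have hK := rmB_nonneg (hm t ht y hyV)
  have hE : ∀ z ∈ bl (g t) U y ρ, ed (g t) (bl (g t) U y ρ) y z ≠ ⊤ := fun z hz =>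
    ed_eq_of_bl Subset.rfl hVU hz ▸ ne_top_of_lt hz
  have hC : ∀ s ∈ Icc (t - σ) t, exp (2 * K * |t - s|) ≤ exp (2 * a ^ 2) := fun s hs => by
    rw [abs_of_nonneg (sub_nonneg.2 hs.2)]
    have h1 : K * (t - s) ≤ K * (a * ρ ^ 2) := mul_le_mul_of_nonneg_left (by linarith [hs.1]) hK
    exact exp_le_exp.2 (by nlinarith [mul_le_mul_of_nonneg_left hKa ha])
  have hcp := fun s hs r => rf_cpt (s := s) (ρ := r) hf hR hs ht ho Subset.rfl Subset.rfl
    (hH.mono hVU) hc hy (hf.toFam.met hs)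
  have hK0 := hc (3 * ρ / 4) (by linarith)
  have hK1 := cbl_subset_bl (g := g t) (U := U) (x := y) hρ (show 3 * ρ / 4 < ρ by linarith)
  have hn := hg.isOpen_bl y (3 * ρ / 4)
  unfold Par at hf
  generalize bl (g t) U y ρ = V at *
  have hF : ∀ s ∈ Icc (t - σ) t, ∀ z ∈ V, ed (g s) V y z ≠ ⊤ := fun s hs z hz =>
    ne_top_of_le_ne_top (ENNReal.mul_ne_top ENNReal.ofReal_ne_top (hE z hz))
      (rf_ed_le hf hR hs ht y z)
  have h1C : 1 ≤ exp (2 * a ^ 2) := one_le_exp (by positivity)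
  have hD := cD_ge ha
  generalize exp (2 * a ^ 2) = C at *
  obtain ⟨r, hr, rfl⟩ : ∃ r > 0, ρ = 2 * C * r := ⟨ρ / (2 * C), by positivity, by field_simp⟩
  obtain ⟨A, hA⟩ : ∃ A, A = c₀ + r⁻¹ * (7 + a) := ⟨_, rfl⟩
  obtain ⟨⟨s, z⟩, ⟨hs, hz⟩, hmin⟩ := (isCompact_Icc.prod hK0).exists_isMinOn
    (f := fun p : ℝ × M => q p.1 p.2 + (r⁻¹ * dd (g p.1) V y p.2 ^ 2 + A * p.1))
    ⟨(t, y), ht, mem_cbl_self hy⟩ ((hq.add ((((cont_dd hf hR hF).pow 2).const_smul r⁻¹).add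
      (continuousOn_const.mul continuousOn_fst))).mono (prod_mono Subset.rfl hK1))
  dsimp only at hs hz
  have hzV := hK1 hz
  have hL := hl s hs z hzV
  have hd : 0 ≤ dd (g s) V y z := dd_nonneg
  rcases hs.1.eq_or_lt with e | hlt
  · have h1 := hmin (a := (t, y)) ⟨ht, mem_cbl_self hy⟩
    simp only [mem_ofPred_eq, dd_self] at h1
    subst e
    have h2 : dd (g (t - σ)) V y z - r / 4 ≤ r⁻¹ * dd (g (t - σ)) V y z ^ 2 := by
      rw [le_inv_mul_iff₀ hr]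
      nlinarith [sq_nonneg (dd (g (t - σ)) V y z - r / 2)]
    have h3 : A * σ ≤ A * (a * (2 * C * r) ^ 2) :=
      mul_le_mul_of_nonneg_left hσa (hA ▸ by positivity)
    have h4 : A * (a * (2 * C * r) ^ 2) =
        (c₀ * (2 * C * r) * a + (7 + a) * a * (2 * C)) * (2 * C * r) := by
      rw [hA]; field_simp
    have h5 : c₀ * (2 * C * r) * a ≤ 1 * a := mul_le_mul_of_nonneg_right hcρ ha
    have h6 : (c₀ * (2 * C * r) * a + (7 + a) * a * (2 * C)) * (2 * C * r) ≤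
        (cD a - 1 / 8) * (2 * C * r) := mul_le_mul_of_nonneg_right (by linarith) hρ.le
    nlinarith
  exfalso
  have h1 := hmin (a := (s, y)) ⟨hs, mem_cbl_self hy⟩
  simp only [mem_ofPred_eq, dd_self] at h1
  have h2 : dd (g s) V y z ≤ r := by
    have h3 : r⁻¹ * dd (g s) V y z ^ 2 ≤ dd (g s) V y z := by nlinarith
    rw [inv_mul_le_iff₀ hr] at h3
    nlinarith
  have hI : Icc (t - σ) t ∈ 𝓝[<] s := mem_of_superset (Ioo_mem_nhdsLT hlt)
    fun τ hτ => ⟨hτ.1.le, hτ.2.le.trans hs.2⟩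
  obtain ⟨f, d, f1, -, -, f2⟩ := P216L.energy_barrier hf (convex_Icc _ _)
    (uniqueDiffOn_Icc (by linarith)) hs (hH.mono hVU)
    (hcp s hs (2 * r) (by positivity) (by nlinarith [hC s hs]))
    (mem_bl_iff.2 ⟨hF s hs z hzV, by linarith⟩) fun w hw => hR s hs w (bl_subset hw)
  have h3 : z ∈ bl (g t) U y (3 * (2 * C * r) / 4) := by
    refine bl_anti hVU (mem_bl_iff.2 ⟨hE z hzV, (rf_dd_le hf hR ht hs (hF s hs z hzV)).trans_lt ?_⟩)
    nlinarith [mul_le_mul (hC s hs) h2 hd (by linarith)]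
  have h4 := (hv s ⟨hlt, hs.2⟩ z hzV).add_up (((f1.up hs hI).const_mul (inv_pos.2 hr).le).add
    (up_time (φ := fun τ => A * τ) hI (by simpa using (hasDerivWithinAt_id s _).const_mul A)))
    0 (fun _ => 0) (sa_const 0)
    (by filter_upwards [hI] with τ hτ; simpa using hmin (a := (τ, z)) ⟨hτ, hz⟩)
    (by filter_upwards [hn.mem_nhds h3] with w hw
        simpa using hmin (a := (s, w)) ⟨hs, bl_subset_cbl hw⟩)
  rw [lap_add ((f1.up hs hI).const_mul (inv_pos.2 hr).le).sm (sa_const _),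
    lap_const_mul _ (f1.sa hs), lap_const, lap_const, hA] at h4
  rw [finrank_E3] at f2
  have h5 : K * dd (g s) V y z ^ 2 ≤ K * r ^ 2 := by gcongr
  have h6 : K * r ^ 2 * 1 ≤ K * r ^ 2 * C ^ 2 := by gcongr; nlinarith
  have h7 : r⁻¹ * (lap (g s) (f s) z - d) < r⁻¹ * (7 + a) :=
    mul_lt_mul_of_pos_left (by push_cast at f2; nlinarith) (inv_pos.2 hr)
  linarith

end Vale.Agent.P216FB
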