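import Vale.Agent.P216FB.Defs
import Vale.Agent.P216FB.Sm
import Vale.Agent.P216D.ModM

/-!
# P216FB: the Bochner inequality along a Ricci flow
-/

open scoped Manifold ContDiff Topology
open Set Filter

set_option maxSynthPendingDepth 3

noncomputable section

namespace Vale.Agent.P216FB

open P216R P216ST P216D P216D.Loc

theorem boch : BOCH := by
  intro M _ _ _ g U a c f f' hac H _ hf hd t ht x hx
  have hI : Iv (Icc a c) := iv_Icc hac
  have m := H.toFam.met ht
  have k := congrArg (ev (fp H.toFam hI ht hx (fr0_on (m.symm x hx) (m.pos x hx))))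
    ((crf H hI x).H_ip_self (inv_sm H.toFam hI x hf))
  have e : (cl H.toFam hI x).fl.H (sm H.toFam hI x f hf) =
      sm H.toFam hI x _ (sf_sub (smF_dt hI H.isOpen hf) (smF_lap H.toFam hf)) := by
    rw [Fl.H, fl_toFr, Dt_sm, Lap_sm]
    exact Sm.ext fun p => rfl
  simp only [crf_toFl, fl_toFr] at k
  rw [e, ip_sm, fp_H] at k
  simp only [map_sub, map_mul, map_ofNat, fp_ip, Fr.hsq, map_sum, map_pow] at k
  refine ⟨_, sf_has (sf_gam H.toFam hf hf) ht hx, k.trans_le ?_⟩
  rw [gam_congr rfl EventuallyEq.rfl (ψ' := fun y => f' t y - lap (g t) (f t) y) (by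
    filter_upwards [H.isOpen.mem_nhds hx] with y hy
    rw [(hd t ht y hy).derivWithin (hI.ud t ht)])]
  exact sub_le_self _ (by positivity)

end Vale.Agent.P216FB
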