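import Vale.Agent.P216FB.Plan
import Vale.Agent.P216BG.Seg
import Vale.Agent.P216C.GF
import Vale.Agent.P216FA.Plan

/-!
# P216FB: assembly of the good flows
-/

open scoped Manifold ContDiff Topology ENNReal
open Set MeasureTheory Real Filter

set_option maxSynthPendingDepth 3

noncomputable section

namespace Vale.Agent.P216FB

open Vale.Agent.P216R Vale.Agent.P216SG Vale.Agent.P216ST Vale.Agent.P216DC Vale.Agent.P216FA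
open Vale.Agent.P216C (Mem Thick Ori)

section mono

variable {M : Type} [TopologicalSpace M] [ChartedSpace E3 M] [MeasurableSpace M]
  {g : ℝ → Ten E3 M} {b d : M → ℝ} {T t₀ r₀ B B' κ q q' : ℝ} {D : Set M → ℝ → M → ℝ} {P : Cs}

theorem Dfn.mono (h : Dfn g b d T t₀ r₀ B κ D) (hB : B' ≤ B) : Dfn g b d T t₀ r₀ B' κ D :=
  ⟨h.d1, h.d2, fun W s h1 h2 y hy h3 => h.nc W s h1 h2 y hy (h3.trans hB)⟩

theorem RCN.mono (h : RCN P g b d T t₀ r₀ B q D) (hq : q ≤ q') : RCN P g b d T t₀ r₀ B q' D :=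
  fun W s y h1 h2 h3 h4 h5 => h W s y h1 h2 h3 h4 (hq.trans h5)

theorem cE_nonneg : 0 ≤ cE := by unfold cE cD; positivity

theorem dfn_zero (h : ∀ W s, Sl b d 0 T W s → ∀ y ∈ W, ∀ ρ ∈ Ioc (0 : ℝ) 1, NC κ (g s) W y ρ)
    (hr : r₀ ≤ 1) : Dfn g b d T t₀ r₀ B κ fun _ _ _ => 0 :=
  ⟨fun _ _ _ _ _ _ _ _ => by simpa using dd_nonneg,
    fun _ _ _ _ _ _ ρ h1 _ σ h2 _ _ _ => by have := cE_nonneg; positivity,
    fun W s h1 _ y hy _ ρ hρ => h W s h1 y hy ρ ⟨hρ.1, hρ.2.trans hr⟩⟩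

theorem ok_mono {e e' : ℝ} (h : P.Ok e) (he : e ≤ e') : P.Ok e' :=
  ⟨h.c1, h.κ0, h.CD0, h.ε0, h.εe.trans he, h.C1, h.A1, h.w0, h.L0⟩

end mono

/-- almost nonnegative curvature on the ball of radius `r` -/
def Gdb {M : Type} [TopologicalSpace M] [ChartedSpace E3 M] (g : Ten E3 M) (U : Set M) (x : M)
    (r : ℝ) : Prop := ∀ y ∈ bl g U x r, SecGe g y (-(1 / r ^ 2))

/-- the conclusions of `PP` and `TKB` for one choice of the constants -/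
def Pkg (c : ℕ → ℝ) (w κ : ℝ) (P : Cs) (K₁ K₂ a δ₀ : ℝ) : Prop :=
  P.Ok 1 ∧ P.c = c ∧ P.κ = κ ∧ P.CD = cE ∧ P.L = 5 ∧ 0 < K₂ ∧ 0 < a ∧ 0 < δ₀ ∧
    ∀ (M : Type) [TopologicalSpace M] [ChartedSpace E3 M] [IsManifold 𝓘(ℝ, E3) ∞ M]
      [MeasurableSpace M] [BorelSpace M] (g : ℝ → Ten E3 M) (b d : M → ℝ) (T h δ t₀ r₀ B : ℝ)
      (D : Set M → ℝ → M → ℝ), Fw c g b d T h δ → δ ≤ δ₀ → 0 < r₀ → 2 * r₀ ^ 2 ≤ t₀ →
      Dfn g b d T t₀ r₀ (B + r₀) κ D → RCN P g b d T t₀ r₀ B (K₁ / r₀ ^ 2) D ∧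
        ∀ U x r, 0 < r → r ≤ r₀ → r ^ 2 ≤ a * t₀ → Sl b d 0 T U t₀ → x ∈ U →
          D U t₀ x + 3 * r ≤ B → Gdb (g t₀) U x r → Vl w (g t₀) U x r →
          Gdb (g t₀) U x (2 * r) ∧ Sc (g t₀) x ≤ K₂ / r ^ 2

theorem gdb_of_pin {M : Type} [TopologicalSpace M] [ChartedSpace E3 M]
    [IsManifold 𝓘(ℝ, E3) ∞ M] {g : Ten E3 M} {U : Set M} {x : M} {r t K : ℝ} (hg : Met g U)
    (hp : Pin g U t) (hK : 0 < K) (hr : 0 < r) (ht : 0 < t)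
    (h1 : r ^ 2 ≤ exp (-(3 + 8 * K)) / 4 * t) (h2 : ∀ y ∈ bl g U x (2 * r), Sc g y ≤ K / r ^ 2) :
    Gdb g U x (2 * r) := fun y hy => by
  refine P216BF.secGe_mono hg (bl_subset hy) (hp y (bl_subset hy) (1 / (8 * K)) (by positivity))
    (neg_le_neg (max_le ?_ ?_))
  · calc 1 / (8 * K) * Sc g y ≤ 1 / (8 * K) * (K / r ^ 2) := by gcongr; exact h2 y hy
      _ = 1 / (2 * r) ^ 2 / 2 := by field_simp; ring
      _ ≤ 1 / (2 * r) ^ 2 := half_le_self (by positivity)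
  · rw [one_div_one_div, div_le_div_iff₀ ht (by positivity)]
    have e := exp_pos (3 + 8 * K)
    rw [exp_neg] at h1
    have := mul_le_mul_of_nonneg_left h1 e.le
    rw [show exp (3 + 8 * K) * ((exp (3 + 8 * K))⁻¹ / 4 * t) = t / 4 by field_simp] at this
    nlinarith

theorem exists_pkg (hC : CNLOC) (hP : ENV) (hT : TKB) {c : ℕ → ℝ} (hc : ∀ j, 1 ≤ c j) {w κ : ℝ}
    (hw : 0 < w) (hκ : 0 < κ) : ∃ P K₁ K₂ a δ₀, Pkg c w κ P K₁ K₂ a δ₀ := by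
  obtain ⟨e, he, c₁, hc₁, H⟩ := hT c
  obtain ⟨e', he', HC⟩ := hC c hc
  have e0 : 0 < min (min e 1) e' := by positivity
  obtain ⟨C, hC1, A, hA, K, hK, δ₀, hδ, hL⟩ := HC _ ⟨e0, min_le_right _ _⟩ κ hκ (c₁ * w)
    (by positivity) cE cE_nonneg
  obtain ⟨P, hP'⟩ : ∃ P : Cs, P = ⟨c, κ, cE, min (min e 1) e', C, A, c₁ * w, 5⟩ := ⟨_, rfl⟩
  have p0 : P.Ok (min e 1) := hP' ▸ ⟨hc, hκ, cE_nonneg, e0, min_le_left _ _, hC1, hA,
    mul_pos hc₁ hw, by norm_num⟩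
  have p1 : P.c = c := by rw [hP']
  have p2 : P.κ = κ := by rw [hP']
  have p3 : P.CD = cE := by rw [hP']
  have p4 : P.w = c₁ * w := by rw [hP']
  have p5 : P.L = 5 := by rw [hP']
  obtain ⟨K₁, hK₁, e1⟩ : ∃ K₁ > 0, K₁ = 4 * K := ⟨_, by positivity, rfl⟩
  have H1 : ∀ (M : Type) [TopologicalSpace M] [ChartedSpace E3 M] [IsManifold 𝓘(ℝ, E3) ∞ M]
      [MeasurableSpace M] [BorelSpace M] (g : ℝ → Ten E3 M) (b d : M → ℝ) (T h δ t₀ r₀ B : ℝ)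
      (D : Set M → ℝ → M → ℝ), Fw c g b d T h δ → δ ≤ δ₀ → 0 < r₀ → 2 * r₀ ^ 2 ≤ t₀ →
      Dfn g b d T t₀ r₀ (B + r₀) κ D → RCN P g b d T t₀ r₀ B (K₁ / r₀ ^ 2) D := by
    intro M _ _ _ _ _ g b d T h δ t₀ r₀ B D hF h1 h2 h3 h4 W s y a1 a2 a3 a4 a5
    have hb := hF.bas W s y D a1 a3
    rw [hP']
    refine hL ⟨M⟩ ⟨g, b, d, 0, T, W, s, y, D, h, δ⟩ (r₀ / 2) hb h1 (by positivity)
      (hP M c g b d T h δ t₀ r₀ (B + r₀) κ s _ _ _ D W y hF h4 h2 h3 a1 a3 a2.2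
        (by nlinarith [a2.1]) (by linarith) (by linarith) (by positivity) (by nlinarith)) ?_
    rw [div_le_iff₀ (by positivity)] at a5
    show K ≤ (r₀ / 2) ^ 2 * Sc (g s) y
    nlinarith
  obtain ⟨K₂, hK₂, a, ha, δ₁, hδ₁, H2⟩ := H P K₁ w p1 (ok_mono p0 (min_le_left _ _)) p3 p4.le
  refine ⟨P, K₁, K₂, min a (exp (-(3 + 8 * K₂)) / 4), min δ₀ δ₁, ok_mono p0 (min_le_right _ _),
    p1, p2, p3, p5, hK₂, by positivity, by positivity, ?_⟩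
  intro M _ _ _ _ _ g b d T h δ t₀ r₀ B D hF h1 h2 h3 h4
  clear hP' HC hL
  subst p1 p2
  have R1 := H1 M g b d T h δ t₀ r₀ B D hF (h1.trans (min_le_left _ _)) h2 h3 h4
  refine ⟨R1, fun U x r a1 a2 a3 a4 a5 a6 a7 a8 => ?_⟩
  have t0 : 0 < t₀ := by nlinarith [sq_pos_of_pos h2]
  have R2 := H2 M g b d T h δ t₀ r₀ r B D U x hF (h1.trans (min_le_right _ _)) a1 a2 h3
    (a3.trans (by gcongr; exact min_le_left _ _)) a4 a5 (h4.mono (by linarith))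
    (R1.mono (by gcongr)) a6 a7 a8
  exact ⟨gdb_of_pin (hF.sf.met a4) (hF.pin U t₀ a4 t0) hK₂ a1 t0
    (a3.trans (by gcongr; exact min_le_right _ _)) R2, R2 x (mem_bl_self a5 (by positivity))⟩

theorem exists_scale {a T : ℝ} (ha : 0 < a) (hT : 0 < T) :
    ∃ r > 0, r ≤ 1 ∧ 2 * r ^ 2 ≤ T ∧ r ^ 2 ≤ a * T := by
  have h : 0 < min (min 1 (T / 2)) (a * T) := by positivity
  refine ⟨√(min (min 1 (T / 2)) (a * T)), sqrt_pos.2 h, ?_, ?_, ?_⟩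
  · exact sqrt_le_one.2 ((min_le_left _ _).trans (min_le_left _ _))
  · rw [sq_sqrt h.le]; linarith [(min_le_left _ (a * T)).trans (min_le_right 1 (T / 2))]
  · rw [sq_sqrt h.le]; exact min_le_right _ _

/-- doubling the radius up to the scale `r₁` -/
theorem gdb_up {M : Type} [TopologicalSpace M] [ChartedSpace E3 M] [IsManifold 𝓘(ℝ, E3) ∞ M]
    {g : Ten E3 M} {U : Set M} {x : M} {r₁ : ℝ} (hg : Met g U) (hc : IsCompact U) (hr : 0 < r₁)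
    (h : ∀ r > 0, r ≤ r₁ → Gdb g U x r → Gdb g U x (2 * r)) : Gdb g U x r₁ := by
  obtain ⟨k, hk, H⟩ := P216BG.exists_sec hg hc Subset.rfl
  obtain ⟨n, hn⟩ := pow_unbounded_of_one_lt (k * r₁) (one_lt_two (α := ℝ))
  have key : ∀ m : ℕ, Gdb g U x (r₁ / 2 ^ m) → Gdb g U x r₁ := by
    intro m
    induction m with
    | zero => simp
    | succ m ih =>
      intro hm
      refine ih ?_
      have := h _ (by positivity) (div_le_self hr.le (one_le_pow₀ one_le_two)) hm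
      rwa [show 2 * (r₁ / 2 ^ (m + 1)) = r₁ / 2 ^ m by field_simp; ring] at this
  refine key n fun y hy => P216BF.secGe_mono hg (bl_subset hy) (H y (bl_subset hy)) (neg_le_neg ?_)
  rw [le_div_iff₀ (by positivity), ← mul_pow, ← mul_div_assoc]
  exact pow_le_one₀ (by positivity) ((div_le_one (by positivity)).2 hn.le)

theorem ev_le {a : ℝ} (ha : 0 < a) : ∀ᶠ e in 𝓝[>] (0 : ℝ), e ≤ a :=
  mem_nhdsWithin_of_mem_nhds (Iic_mem_nhds ha)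

theorem ev_mul_le {a V : ℝ} (ha : 0 < a) (hV : 0 ≤ V) : ∀ᶠ e in 𝓝[>] (0 : ℝ), e * V ≤ a := by
  filter_upwards [ev_le (a := a / (V + 1)) (by positivity), self_mem_nhdsWithin] with e h1 h2
  rw [le_div_iff₀ (by positivity)] at h1
  have : 0 < e := h2
  nlinarith

theorem gfi (Tb : TbT) (hE : EXI Tb) (hL : LNCB Tb) (hC : CNLOC) (hP : ENV) (hT : TKB)
    (hS : SHT) : GFI := by
  intro C w T hw hT0 hcut himg hth hori
  obtain ⟨c, hc, HE⟩ := hE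
  obtain ⟨κ₁, hκ₁, η₁, hη₁, e₁, he₁, L1⟩ := hL 6 (by norm_num) w hw
  obtain ⟨P₁, K₁, K₂, a₁, δ₁, -, -, -, -, -, hK₂, ha₁, hδ₁, Q1⟩ := exists_pkg hC hP hT hc hw hκ₁
  obtain ⟨r₁, hr₁, r11, r12, r13⟩ := exists_scale ha₁ hT0
  choose κ hκ η hη e he LD using fun D : ℕ => hL (D / r₁ + 4) (by positivity) w hw
  choose P K K' a δD hPk using fun D : ℕ => exists_pkg hC hP hT hc hw (hκ D)
  choose cc hcc hD hhD SD using fun D : ℕ => hS (P D) (K D / r₁ ^ 2) (K₂ / r₁ ^ 2) r₁ (hPk D).1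
    (hPk D).2.2.2.1 (hPk D).2.2.2.2.1 hr₁
  have hρ : 1 / (r₁ / √K₂) ^ 2 = K₂ / r₁ ^ 2 := by rw [div_pow, sq_sqrt hK₂.le, one_div_div]
  refine ⟨r₁ / √K₂, by positivity, cc, hcc, ?_⟩
  intro N _ _ _ _ _ U₀ g₀ hU₀ hg₀ A
  obtain ⟨κ₀, hκ₀, V, hV, HX⟩ := HE C w T hw hT0 hcut himg hth hori N U₀ g₀ hU₀ hg₀
  obtain ⟨P₀, K₀, K₀', a₀, δ₀, -, -, -, -, -, -, ha₀, hδ₀, Q0⟩ := exists_pkg hC hP hT hc hw hκ₀
  obtain ⟨r', hr', -, -, r3⟩ := exists_scale ha₀ hT0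
  have hm : 0 < min r' r₁ := lt_min hr' hr₁
  have c0 : 0 ≤ c 0 := zero_le_one.trans (hc 0)
  have ev : ∀ᶠ s in 𝓝[>] (0 : ℝ), (s ≤ δ₁ ∧ s ≤ δ₀ ∧ s ≤ η₁ ∧ s * V ≤ e₁ * min r' r₁ ^ 3 ∧
      s * c 0 ≤ 1 / 2) ∧ ∀ D ∈ Finset.range (A + 1), s ≤ δD D ∧ s ≤ hD D ∧ s ≤ η D ∧
        s * V ≤ e D * min r' r₁ ^ 3 := by
    refine ((ev_le hδ₁).and ((ev_le hδ₀).and ((ev_le hη₁).and ((ev_mul_le (by positivity) hV).and
      (ev_mul_le (by positivity) c0))))).and ((Finset.eventually_all _).2 fun D _ => ?_)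
    have := he D
    exact (ev_le (hPk D).2.2.2.2.2.2.2.1).and ((ev_le (hhD D)).and ((ev_le (hη D)).and
      (ev_mul_le (by positivity) hV)))
  obtain ⟨s, ⟨⟨s1, s2, s3, s4, s5⟩, s6⟩, hs⟩ := (ev.and self_mem_nhdsWithin).exists
  obtain ⟨h, hh, δ, hδ, ε, hε, η', hη', M, i1, i2, i3, i4, i5, g, b, d, G⟩ := HX s hs
  refine ⟨M, i1, i2, i3, i4, i5, g, b, d, G.fw.sf, G.mem, G.vol0, G.sc0, G.srg, ?_⟩
  have hsl : Sl b d 0 T (preS b d T) T := sl_pre ⟨hT0, le_rfl⟩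
  have hmet := G.fw.sf.met hsl
  obtain ⟨x, hx, hvl⟩ := hth M _ (g T) (G.mem _ _ hsl) hmet
  have εV : ε * V ≤ s * V := mul_le_mul_of_nonneg_right hε.2 hV
  have N1 := L1 M g b d T η' ε V (min r' r₁) G.fw.sf G.fw.con (hη'.trans s3) G.tb hε.1 hV hm
    (εV.trans s4) G.col G.low G.vol
  have big : ∀ r, min r' r₁ ≤ r → r ≤ r₁ → Gdb (g T) (preS b d T) x r →
      Gdb (g T) (preS b d T) x (2 * r) ∧ Sc (g T) x ≤ K₂ / r ^ 2 := fun r a1 a2 a3 => by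
    have r0 : 0 < r := hm.trans_le a1
    have a4 : r ^ 2 ≤ r₁ ^ 2 := by gcongr
    obtain ⟨D, d1, d2⟩ := N1 _ T x r hsl a1 (by linarith) (hvl r r0 a3)
    exact (Q1 M g b d T h δ T r (5 * r) D G.fw (hδ.trans s1) r0 (by linarith)
      (d1.mono (by linarith))).2 _ x r r0 le_rfl (by linarith) hsl hx (by linarith) a3
      (hvl r r0 a3)
  have g1 : Gdb (g T) (preS b d T) x r₁ := by
    refine gdb_up hmet (G.fw.sf.sl_cpt hsl) hr₁ fun r r0 a2 a3 => ?_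
    rcases le_total (min r' r₁) r with a1 | a1
    · exact (big r a1 a2 a3).1
    · have a4 : r ^ 2 ≤ r' ^ 2 := by gcongr; exact a1.trans (min_le_left _ _)
      exact ((Q0 M g b d T h δ T r₁ (3 * r₁) _ G.fw (hδ.trans s2) hr₁ r12
        (dfn_zero G.nc r11)).2 _ x r r0 a2 (by linarith) hsl hx (by linarith) a3
        (hvl r r0 a3)).1
  refine ⟨x, hx, hρ ▸ (big r₁ (min_le_right _ _) le_rfl g1).2, fun D hDA y hy hsc => ?_⟩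
  obtain ⟨t1, t2, t3, t4⟩ := s6 D (Finset.mem_range.2 (Nat.lt_succ_of_le hDA))
  obtain ⟨F, d1, d2⟩ := LD D M g b d T η' ε V (min r' r₁) G.fw.sf G.fw.con (hη'.trans t3) G.tb
    hε.1 hV hm (εV.trans t4) G.col G.low G.vol _ T x r₁ hsl (min_le_right _ _) r12
    (hvl r₁ hr₁ g1)
  rw [show (D / r₁ + 4) * r₁ = D + 3 * r₁ + r₁ by field_simp; ring] at d1
  obtain ⟨-, p1, p2, -, -, -, -, -, QD⟩ := hPk D
  have R := (QD M g b d T h δ T r₁ (D + 3 * r₁) F G.fw (hδ.trans t1) hr₁ r12 d1).1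
  have d3 := d1.d1 _ T hsl ⟨by nlinarith [sq_nonneg r₁], le_rfl⟩ x hx y (bl_subset hy)
  have d4 := (mem_bl_iff.1 hy).2
  exact SD D M g b d T h δ T (D + 3 * r₁) F _ y (p1 ▸ G.fw)
    (by rw [p1]; nlinarith [mul_le_mul_of_nonneg_right hδ c0]) (hh.trans t2) r12 hsl
    (bl_subset hy) (p2 ▸ d1.mono (by linarith)) R (by linarith) (hρ ▸ hsc)

theorem gf2 (h : GFI) : P216C.GF2 := fun C w T h1 h2 h3 h4 h5 h6 => h C w T h1 h2 h3 h5 h4 h6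

end Vale.Agent.P216FB
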