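import Vale.Agent.P216FB.Defs
import Vale.Agent.P216FB.Sm

/-!
# P216FB: the gradient estimate of Hamilton
-/

open scoped Manifold ContDiff Topology
open Set Filter Real

set_option maxSynthPendingDepth 3

noncomputable section

namespace Vale.Agent.P216FB

open P216R P216ST P216MP

variable {M : Type} [TopologicalSpace M] [ChartedSpace E3 M] [IsManifold 𝓘(ℝ, E3) ∞ M]
  {g : ℝ → Ten E3 M} {U : Set M} {a c m : ℝ} {u : ℝ → M → ℝ}

omit [IsManifold 𝓘(ℝ, E3) ∞ M] in
theorem Ht.neg (h : Ht g a c U u) (hU : IsOpen U) : Ht g a c U fun t x => -u t x :=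
  ⟨sf_neg h.sm, fun t ht x hx => lap_neg (g := g t) (sf_sa hU h.sm ht hx) ▸ (h.eqn t ht x hx).neg⟩

/-- the minimum principle for the heat equation -/
theorem Ht.ge (h : Ht g a c U u) (H : Fam g (Icc a c) U) (hc : IsCompact U)
    (h0 : ∀ x ∈ U, m ≤ u a x) : ∀ t ∈ Icc a c, ∀ x ∈ U, m ≤ u t x := fun t ht x hx => by
  have s := sf_sub h.sm (sf_const m)
  refine sub_nonneg.1 (wmp_smooth (u := fun t x => u t x - m) (K := 0) H hc (sf_cont H.isOpen s)
    (fun t ht x hx => sf_sa H.isOpen s (Ioc_subset_Icc_self ht) hx)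
    (fun t ht x hx => (h.eqn t (Ioc_subset_Icc_self ht) x hx).sub_const m)
    (fun x hx => sub_nonneg.2 (h0 x hx)) (fun t ht x hx _ _ k => ?_) t ht x hx)
  rw [lap_sub (sf_sa H.isOpen h.sm (Ioc_subset_Icc_self ht) hx) (sa_const m), lap_const] at k
  linarith

/-- the maximum principle for the heat equation -/
theorem Ht.le (h : Ht g a c U u) (H : Fam g (Icc a c) U) (hc : IsCompact U)
    (h0 : ∀ x ∈ U, u a x ≤ m) : ∀ t ∈ Icc a c, ∀ x ∈ U, u t x ≤ m := fun t ht x hx =>
  neg_le_neg_iff.1 ((h.neg H.isOpen).ge H hc (fun x hx => neg_le_neg (h0 x hx)) t ht x hx)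

theorem Ht.pos (h : Ht g a c U u) (hac : a ≤ c) (H : Fam g (Icc a c) U) (hc : IsCompact U)
    (h0 : ∀ x ∈ U, 0 < u a x) : ∀ t ∈ Icc a c, ∀ x ∈ U, 0 < u t x := fun t ht x hx => by
  obtain ⟨m, m0, hm⟩ := hc.exists_forall_le'
    (s0_cont H.isOpen (sf_slice h.sm (left_mem_Icc.2 hac))) h0
  exact m0.trans_le (h.ge H hc hm t ht x hx)

theorem ham (hb : BOCH) : HAM := by
  intro M _ _ _ g U a c s₁ u h1 hac H hc hH h w
  have o := H.isOpen
  have p := h.pos hac.le H.toFam hc w.pos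
  have d1 : ∀ s : ℝ, 0 < s → HasDerivAt (fun s => log 2 - log s) (-s⁻¹) s := fun s hs =>
    (hasDerivAt_log hs.ne').const_sub _
  set f : ℝ → M → ℝ := fun t x => log 2 - log (u t x) with hf
  have sf : SmF E3 f (Icc a c) U := sf_comp (F := fun s => log 2 - log s) h.sm fun t ht x hx =>
    contDiffAt_const.sub (contDiffAt_log.2 (p t ht x hx).ne')
  have gf : ∀ t ∈ Icc a c, ∀ x ∈ U, gam (g t) (f t) (f t) x =
      (u t x)⁻¹ ^ 2 * gam (g t) (u t) (u t) x := fun t ht x hx => by
    rw [← neg_sq]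
    exact gam_comp2 (H.toFam.met ht) hx (sf_sa o h.sm ht hx) (d1 _ (p t ht x hx))
  have df : ∀ t ∈ Icc a c, ∀ x ∈ U, HasDerivWithinAt (fun s => f s x)
      (lap (g t) (f t) x - gam (g t) (f t) (f t) x) (Icc a c) t := fun t ht x hx => by
    have k := lap_comp (g := g t) (η := fun s => log 2 - log s) (η1 := fun s => -s⁻¹)
      (sf_sa o h.sm ht hx) ((lt_mem_nhds (p t ht x hx)).mono d1)
      (hasDerivAt_inv (p t ht x hx).ne').neg
    refine ((d1 _ (p t ht x hx)).comp_hasDerivWithinAt t (h.eqn t ht x hx)).congr_deriv ?_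
    rw [gf t ht x hx, hf, k, inv_pow]
    ring
  choose! D hD using hb M g U a c f _ hac H hH sf df
  have sg := sf_gam H.toFam sf sf
  have sW := sf_sub sf (sf_mul (sf_of_time (F := fun t => t - s₁) (by fun_prop)) sg)
  have key : ∀ t ∈ Icc a c, ∀ x ∈ U, ((t - s₁) * gam (g t) (u t) (u t) x ≤
      u t x ^ 2 * log (2 / u t x) ↔ 0 ≤ f t x - (t - s₁) * gam (g t) (f t) (f t) x) :=
    fun t ht x hx => by
      have q := p t ht x hx
      rw [gf t ht x hx, log_div two_ne_zero q.ne', sub_nonneg, mul_left_comm, inv_pow,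
        inv_mul_le_iff₀ (by positivity)]
  have k := wmp_smooth (K := 0) H.toFam hc (sf_cont o sW)
    (fun t ht x hx => sf_sa o sW (Ioc_subset_Icc_self ht) hx)
    (fun t ht x hx => (df t (Ioc_subset_Icc_self ht) x hx).sub
      (((hasDerivWithinAt_id t _).sub_const s₁).mul (hD t (Ioc_subset_Icc_self ht) x hx).1))
    (fun x hx => (key a (left_mem_Icc.2 hac.le) x hx).1 (w.grad x hx))
    fun t ht x hx _ k1 k2 => by
      have ht' := Ioc_subset_Icc_self ht
      have a1 := sf_sa o sf ht' hx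
      have a2 := sf_sa o sg ht' hx
      have m := H.toFam.met ht'
      have k3 := gam_zero_right (g := g t) (k := f t)
        (f := fun y => f t y - (t - s₁) * gam (g t) (f t) (f t) y) k1
      have k4 := (hD t ht' x hx).2
      simp only [sub_sub_cancel_left] at k4
      rw [gam_negR m hx] at k4
      have a3 : SA E3 (fun y => (t - s₁) * gam (g t) (f t) (f t) y) x := (sa_const _).mul a2
      rw [gam_subR m hx a1 a3, gam_const_mulR m hx _ a2] at k3
      rw [lap_sub a1 a3, lap_const_mul _ a2] at k2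
      have k5 := mul_le_mul_of_nonneg_left k4 (sub_nonneg.2 (h1.trans ht.1.le))
      simp only [id]
      linarith
  exact fun t ht => ⟨p t ht, h.le H.toFam hc w.le t ht, fun x hx => (key t ht x hx).2 (k t ht x hx)⟩

end Vale.Agent.P216FB
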