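import Vale.Agent.P216FB.Defs
import Vale.Agent.P216FA.Defs
import Vale.Agent.P216N.BDefs
import Vale.Agent.P216DC.Stm
import Vale.Agent.P216DC.Stm2
import Vale.Agent.P216R.Exist

/-!
# P216FB: the top layer (local control near a thick ball): definitions and block statements
-/

open scoped Manifold ContDiff Topology ENNReal
open Set MeasureTheory Real

set_option maxSynthPendingDepth 3

noncomputable section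

namespace Vale.Agent.P216FB

open Vale.Agent.P216R Vale.Agent.P216SG Vale.Agent.P216ST Vale.Agent.P216DC Vale.Agent.P216FA
open Vale.Agent.P216C (Mem Thick Ori)

/-- the constant of the region functions -/
def cE : ℝ := 2 * cD 4

section defs

variable {M : Type} [TopologicalSpace M] [ChartedSpace E3 M] [MeasurableSpace M]

/-- a region function on the window `[t₀ - r₀ ^ 2 / 2, t₀]`, with no collapsing where `D ≤ B` -/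
structure Dfn (g : ℝ → Ten E3 M) (b d : M → ℝ) (T t₀ r₀ B κ : ℝ) (D : Set M → ℝ → M → ℝ) :
    Prop where
  d1 : ∀ W s, Sl b d 0 T W s → s ∈ Icc (t₀ - r₀ ^ 2 / 2) t₀ → ∀ y ∈ W, ∀ z ∈ W,
    D W s z ≤ D W s y + dd (g s) W y z
  d2 : ∀ W s, Sl b d 0 T W s → s ≤ t₀ → ∀ y ∈ W, ∀ ρ > 0, 2 * ρ ≤ r₀ → ∀ σ > 0, σ ≤ ρ ^ 2 →
    t₀ - r₀ ^ 2 / 2 ≤ s - σ → ParB g W y s (2 * ρ) σ (1 / ρ ^ 2) →
    D (postS b d (s - σ)) (s - σ) y ≤ D W s y + cE * ρ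
  nc : ∀ W s, Sl b d 0 T W s → s ∈ Icc (t₀ - r₀ ^ 2 / 2) t₀ → ∀ y ∈ W, D W s y ≤ B →
    ∀ ρ ∈ Ioc 0 r₀, NC κ (g s) W y ρ

/-- every `w`-thick ball of radius `r₀ ≥ r'` carries a region function of size `A r₀` -/
def LNC (g : ℝ → Ten E3 M) (b d : M → ℝ) (T A w κ r' : ℝ) : Prop :=
  ∀ U t₀ x r₀, Sl b d 0 T U t₀ → r' ≤ r₀ → 2 * r₀ ^ 2 ≤ t₀ → Vl w (g t₀) U x r₀ →
    ∃ D, Dfn g b d T t₀ r₀ (A * r₀) κ D ∧ D U t₀ x ≤ 2 * r₀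

/-- flows with surgery of scale `h` and quality `δ` on `[0, T]` -/
structure Fw (c : ℕ → ℝ) (g : ℝ → Ten E3 M) (b d : M → ℝ) (T h δ : ℝ) : Prop where
  sf : SF g b d 0 T
  con : ∀ W s, Sl b d 0 T W s → IsPreconnected W
  bas : ∀ U t x D, Sl b d 0 T U t → x ∈ U → Dat.Bas ⟨g, b, d, 0, T, U, t, x, D, h, δ⟩ c
  pin : ∀ W s, Sl b d 0 T W s → 0 < s → Pin (g s) W s
  bdd : ∃ Θ, ∀ W s, Sl b d 0 T W s → ∀ y ∈ W, Sc (g s) y ≤ Θ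

/-- canonical neighbourhoods above the level `q`, in the region `D ≤ B`, on the short window -/
def RCN (P : Cs) (g : ℝ → Ten E3 M) (b d : M → ℝ) (T t₀ r₀ B q : ℝ)
    (D : Set M → ℝ → M → ℝ) : Prop :=
  ∀ W s y, Sl b d 0 T W s → s ∈ Icc (t₀ - r₀ ^ 2 / 4) t₀ → y ∈ W → D W s y ≤ B →
    q ≤ Sc (g s) y → CN P.ε P.C P.A P.w (g s) W y

/-- control of size `A` at the scale `Q ^ (-1 / 2)`, canonical neighbourhoods above `P.L * Q` -/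
structure CtlQ (F : Dat M) (P : Cs) (A Q : ℝ) : Prop where
  bas : F.Bas P.c
  env : F.Env P.κ P.CD (A / √Q) (A / Q) (A / Q)
  cn : ∀ W s y, F.Reg (A / √Q) (A / Q) W s y → P.L * Q ≤ Sc (F.g s) y →
    CN P.ε P.C P.A P.w (F.g s) W y

end defs

/-- canonical neighbourhoods propagate from the higher levels -/
def LC (P : Cs) (A₀ δ₀ : ℝ) : Prop :=
  ∀ (M : Type) [TopologicalSpace M] [ChartedSpace E3 M] [IsManifold 𝓘(ℝ, E3) ∞ M]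
    [MeasurableSpace M] [BorelSpace M] (F : Dat M), F.δ ≤ δ₀ → 0 < Sc (F.g F.t) F.x →
    CtlQ F P A₀ (Sc (F.g F.t) F.x) → CN P.ε P.C P.A P.w (F.g F.t) F.U F.x

/-- **LCNF** (64): the local canonical neighbourhood theorem, finitary form -/
def LCNF : Prop :=
  ∀ (c : ℕ → ℝ) (κ CD w e : ℝ), (∀ j, 1 ≤ c j) → 0 < κ → 0 ≤ CD → 0 < w → 0 < e →
    ∃ P : Cs, P.Ok e ∧ P.c = c ∧ P.κ = κ ∧ P.CD = CD ∧ P.w = w ∧ P.L = 5 ∧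
      ∃ A₀ > 0, ∃ δ₀ > 0, LC P A₀ δ₀

/-- **NKP** (64): centres of necks have unscathed parabolic neighbourhoods -/
def NKP : Prop :=
  ∀ c : ℕ → ℝ, ∃ e > 0, ∀ P : Cs, P.c = c → P.Ok e → ∃ L > 0, ∃ a > 0, ∃ K A₀ : ℝ, ∃ δ₀ > 0, 0 < A₀ ∧
    ∀ (M : Type) [TopologicalSpace M] [ChartedSpace E3 M] [IsManifold 𝓘(ℝ, E3) ∞ M]
      [MeasurableSpace M] [BorelSpace M] (F : Dat M) (σ : ℝ), F.δ ≤ δ₀ → 0 < σ →
      σ ^ 2 * Sc (F.g F.t) F.x = 1 → CtlQ F { P with L := L } A₀ (Sc (F.g F.t) F.x) →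
      Cen (F.g F.t) F.U F.x σ P.ε → ParB F.g F.U F.x F.t (a * σ) (a * σ ^ 2) (K / σ ^ 2)

/-- **WIN**: below the scale of the surgeries a short backward window is unscathed -/
def WIN : Prop :=
  ∀ P : Cs, P.Ok 1 → ∃ a > 0, ∃ K > 0,
    ∀ (M : Type) [TopologicalSpace M] [ChartedSpace E3 M] [IsManifold 𝓘(ℝ, E3) ∞ M]
      [MeasurableSpace M] [BorelSpace M] (F : Dat M) (Q : ℝ), F.δ * P.c 0 ≤ 1 / 2 → 0 < Q →
      F.h ^ 2 * Q ≤ a → Sc (F.g F.t) F.x ≤ Q → CtlQ F P 1 Q →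
      ParB F.g F.U F.x F.t (a / √Q) (a / Q) (K * Q)

/-- **ADP**: from a family of regions to a region function -/
def ADP : Prop :=
  ∀ (M : Type) [TopologicalSpace M] [ChartedSpace E3 M] [IsManifold 𝓘(ℝ, E3) ∞ M]
    [MeasurableSpace M] [BorelSpace M] (g : ℝ → Ten E3 M) (b d : M → ℝ) (T t₀ r₀ B κ : ℝ)
    (N : ℝ → ℝ → M → Prop), SF g b d 0 T → (∀ W s, Sl b d 0 T W s → IsPreconnected W) →
    0 < r₀ → 0 ≤ B → Rg g b d 0 T (t₀ - r₀ ^ 2 / 2) r₀ N →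
    (∀ W s, Sl b d 0 T W s → ∀ y ∈ W, N (B + r₀) s y → ∀ ρ ∈ Ioc 0 r₀, NC κ (g s) W y ρ) →
    ∃ D, Dfn g b d T t₀ r₀ B κ D ∧ ∀ W s y A, 0 ≤ A → N A s y → D W s y ≤ A

/-- predicates for the surgery data of the entropy argument: metrics, lives, horizon, error -/
abbrev TbT : Type 1 :=
  ∀ (M : Type) [TopologicalSpace M] [ChartedSpace E3 M] [MeasurableSpace M],
    (ℝ → Ten E3 M) → (M → ℝ) → (M → ℝ) → ℝ → ℝ → Prop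

/-- **NCM** (71): no collapsing where all weights are bounded below -/
def NCM (Tb : TbT) : Prop :=
  ∀ m > 0, ∀ Λ > 0, ∃ κ > 0, ∃ η₀ > 0,
    ∀ (M : Type) [TopologicalSpace M] [ChartedSpace E3 M] [IsManifold 𝓘(ℝ, E3) ∞ M]
      [MeasurableSpace M] [BorelSpace M] (g : ℝ → Ten E3 M) (b d : M → ℝ)
      (T η s₁ T' r₀ ρ t : ℝ) (U : Set M) (y : M) (H : Set (ℝ → M → ℝ)),
      SF g b d 0 T → η ≤ η₀ → Tb M g b d T η → 0 ≤ s₁ → s₁ < t → T' ≤ T → Sl b d s₁ T' U t →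
      y ∈ U → 0 < ρ → ρ ≤ r₀ → t - s₁ ≤ r₀ ^ 2 → 2 * r₀ ^ 2 ≤ T →
      (∀ W s, Sl b d s₁ T' W s → ∀ x ∈ W, -(3 / r₀ ^ 2) ≤ Sc (g s) x) →
      (∀ u ∈ H, (∀ a c, s₁ ≤ a → a < c → c ≤ T' → Gap b d a c → Ht g a c (Liv b d a c) u) ∧
        ∀ W s, Sl b d s₁ T' W s → ∀ x ∈ W, 0 < u s x ∧ u s x ≤ 1) →
      (∀ p, Sm0 E3 p (postS b d s₁) → ∫ x in postS b d s₁, p x ^ 2 ∂vol (g s₁) < 1 →
        ∃ u ∈ H, u s₁ = fun x => (√(1 + p x ^ 2 * r₀ ^ 3 / Λ))⁻¹) →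
      (∀ u ∈ H, ∀ z ∈ bl (g t) U y ρ, m ≤ u t z) → NC κ (g t) U y ρ

/-- **LNCB**: local no collapsing near thick balls -/
def LNCB (Tb : TbT) : Prop :=
  ∀ A ≥ 0, ∀ w > 0, ∃ κ > 0, ∃ η₀ > 0, ∃ e > 0,
    ∀ (M : Type) [TopologicalSpace M] [ChartedSpace E3 M] [IsManifold 𝓘(ℝ, E3) ∞ M]
      [MeasurableSpace M] [BorelSpace M] (g : ℝ → Ten E3 M) (b d : M → ℝ) (T η ε V r' : ℝ),
      SF g b d 0 T → (∀ W s, Sl b d 0 T W s → IsPreconnected W) → η ≤ η₀ → Tb M g b d T η →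
      0 ≤ ε → 0 ≤ V → 0 < r' → ε * V ≤ e * r' ^ 3 →
      (∀ t ∈ Ioo 0 T, Col (g t) (preS b d t) (postS b d t) ε) →
      (∀ W s, Sl b d 0 T W s → 0 < s → ∀ x ∈ W, -(3 / s) ≤ Sc (g s) x) →
      (∀ W s, Sl b d 0 T W s → vol (g s) W ≤ ENNReal.ofReal V) → LNC g b d T A w κ r'

/-- **ENV**: the environment of a point of the region -/
def ENV : Prop :=
  ∀ (M : Type) [TopologicalSpace M] [ChartedSpace E3 M] [IsManifold 𝓘(ℝ, E3) ∞ M]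
    [MeasurableSpace M] [BorelSpace M] (c : ℕ → ℝ) (g : ℝ → Ten E3 M) (b d : M → ℝ)
    (T h δ t₀ r₀ B κ s r τ a : ℝ) (D : Set M → ℝ → M → ℝ) (W : Set M) (y : M),
    Fw c g b d T h δ → Dfn g b d T t₀ r₀ B κ D → 0 < r₀ → 2 * r₀ ^ 2 ≤ t₀ → Sl b d 0 T W s →
    y ∈ W → s ≤ t₀ → t₀ - r₀ ^ 2 / 2 ≤ s - τ → 2 * r ≤ r₀ → D W s y + r ≤ B → 0 < a →
    a ≤ r₀ ^ 2 → Dat.Env ⟨g, b, d, 0, T, W, s, y, D, h, δ⟩ κ cE r τ a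

/-- **PP**: canonical neighbourhoods in the region, by point picking -/
def PP : Prop :=
  ∀ (P : Cs) (A₀ δ₀ : ℝ), P.CD = cE → P.L = 5 → 0 < A₀ → LC P A₀ δ₀ → ∃ K₁ > 0,
    ∀ (M : Type) [TopologicalSpace M] [ChartedSpace E3 M] [IsManifold 𝓘(ℝ, E3) ∞ M]
      [MeasurableSpace M] [BorelSpace M] (g : ℝ → Ten E3 M) (b d : M → ℝ) (T h δ t₀ r₀ B : ℝ)
      (D : Set M → ℝ → M → ℝ), Fw P.c g b d T h δ → δ ≤ δ₀ → 0 < r₀ → 2 * r₀ ^ 2 ≤ t₀ →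
      Dfn g b d T t₀ r₀ (B + r₀) P.κ D → RCN P g b d T t₀ r₀ B (K₁ / r₀ ^ 2) D

/-- **TKB**: the curvature is bounded near a thick ball with almost nonnegative curvature -/
def TKB : Prop :=
  ∀ c : ℕ → ℝ, ∃ e > 0, ∃ c₁ > 0, ∀ (P : Cs) (K₁ w : ℝ), P.c = c → P.Ok e → P.CD = cE →
    P.w ≤ c₁ * w → ∃ K₂ > 0, ∃ a > 0, ∃ δ₀ > 0,
    ∀ (M : Type) [TopologicalSpace M] [ChartedSpace E3 M] [IsManifold 𝓘(ℝ, E3) ∞ M]
      [MeasurableSpace M] [BorelSpace M] (g : ℝ → Ten E3 M) (b d : M → ℝ) (T h δ t₀ r₀ r B : ℝ)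
      (D : Set M → ℝ → M → ℝ) (U : Set M) (x : M), Fw P.c g b d T h δ → δ ≤ δ₀ → 0 < r →
      r ≤ r₀ → 2 * r₀ ^ 2 ≤ t₀ → r ^ 2 ≤ a * t₀ → Sl b d 0 T U t₀ → x ∈ U →
      Dfn g b d T t₀ r₀ B P.κ D → RCN P g b d T t₀ r₀ B (K₁ / r ^ 2) D → D U t₀ x + 3 * r ≤ B →
      (∀ y ∈ bl (g t₀) U x r, SecGe (g t₀) y (-(1 / r ^ 2))) → Vl w (g t₀) U x r →
      ∀ y ∈ bl (g t₀) U x (2 * r), Sc (g t₀) y ≤ K₂ / r ^ 2

/-- **SHT**: points of the region with bounded curvature have controlled neighbourhoods -/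
def SHT : Prop :=
  ∀ (P : Cs) (K₁ Λ r₀ : ℝ), P.Ok 1 → P.CD = cE → P.L = 5 → 0 < r₀ → ∃ c > 0, ∃ h₀ > 0,
    ∀ (M : Type) [TopologicalSpace M] [ChartedSpace E3 M] [IsManifold 𝓘(ℝ, E3) ∞ M]
      [MeasurableSpace M] [BorelSpace M] (g : ℝ → Ten E3 M) (b d : M → ℝ) (T h δ t₀ B : ℝ)
      (D : Set M → ℝ → M → ℝ) (U : Set M) (y : M), Fw P.c g b d T h δ → δ * P.c 0 ≤ 1 / 2 →
      h ≤ h₀ → 2 * r₀ ^ 2 ≤ t₀ → Sl b d 0 T U t₀ → y ∈ U → Dfn g b d T t₀ r₀ B P.κ D →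
      RCN P g b d T t₀ r₀ B K₁ D → D U t₀ y + r₀ ≤ B → Sc (g t₀) y ≤ Λ →
      ParB g U y t₀ c (c ^ 2) (1 / c ^ 2) ∧ Vl c (g t₀) U y (c / 2)

section gd

variable {N : Type} [TopologicalSpace N] [ChartedSpace E3 N] [MeasurableSpace N]
  {M : Type} [TopologicalSpace M] [ChartedSpace E3 M] [MeasurableSpace M]

/-- what the existence theorem delivers -/
structure Gd (C : Cls) (c : ℕ → ℝ) (Tb : TbT) (g₀ : Ten E3 N) (U₀ : Set N) (g : ℝ → Ten E3 M)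
    (b d : M → ℝ) (T h δ ε η κ V : ℝ) : Prop where
  fw : Fw c g b d T h δ
  mem : ∀ U t, Sl b d 0 T U t → Mem C U
  col : ∀ t ∈ Ioo 0 T, Col (g t) (preS b d t) (postS b d t) ε
  tb : Tb M g b d T η
  low : ∀ W s, Sl b d 0 T W s → 0 < s → ∀ x ∈ W, -(3 / s) ≤ Sc (g s) x
  vol : ∀ W s, Sl b d 0 T W s → vol (g s) W ≤ ENNReal.ofReal V
  nc : ∀ W s, Sl b d 0 T W s → ∀ y ∈ W, ∀ ρ ∈ Ioc (0 : ℝ) 1, NC κ (g s) W y ρ
  vol0 : P216R.vol (g 0) (postS b d 0) ≤ P216R.vol g₀ U₀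
  sc0 : ∀ a, (∀ x ∈ U₀, a ≤ Sc g₀ x) → ∀ x ∈ postS b d 0, a ≤ Sc (g 0) x
  srg : ∀ t ∈ Ioo 0 T, P216R.vol (g t) (postS b d t) ≤ P216R.vol (g t) (preS b d t) ∧
    ∀ a ≤ 0, (∀ x ∈ preS b d t, a ≤ Sc (g t) x) → ∀ x ∈ postS b d t, a ≤ Sc (g t) x

end gd

/-- **EXI** (64, 41, 71): existence of flows with arbitrarily fine surgeries -/
def EXI (Tb : TbT) : Prop :=
  ∃ c : ℕ → ℝ, (∀ j, 1 ≤ c j) ∧ ∀ (C : Cls) (w T : ℝ), 0 < w → 0 < T → CutClosed C →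
    ImgClosed C → Thick C w →
    (∀ (M : Type) [TopologicalSpace M] [ChartedSpace E3 M] (U : Set M), C M U → Ori U) →
    ∀ (N : Type) [TopologicalSpace N] [ChartedSpace E3 N] [IsManifold 𝓘(ℝ, E3) ∞ N]
      [MeasurableSpace N] [BorelSpace N] (U₀ : Set N) (g₀ : Ten E3 N), Mem C U₀ → Met g₀ U₀ →
      ∃ κ > 0, ∃ V ≥ 0, ∀ e > 0, ∃ h ≤ e, ∃ δ ≤ e, ∃ ε ∈ Icc 0 e, ∃ η ≤ e,
        ∃ (M : Type) (_ : TopologicalSpace M) (_ : ChartedSpace E3 M)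
          (_ : IsManifold 𝓘(ℝ, E3) ∞ M) (_ : MeasurableSpace M) (_ : BorelSpace M)
          (g : ℝ → Ten E3 M) (b d : M → ℝ), Gd C c Tb g₀ U₀ g b d T h δ ε η κ V

/-- **GFI**: the statement `P216C.GF` for classes that are invariant under diffeomorphisms -/
def GFI : Prop :=
  ∀ (C : Cls) (w T : ℝ), 0 < w → 0 < T → CutClosed C → ImgClosed C → Thick C w →
    (∀ (M : Type) [TopologicalSpace M] [ChartedSpace E3 M] (U : Set M), C M U → Ori U) →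
    ∃ ρ > 0, ∃ c : ℕ → ℝ, (∀ D, 0 < c D) ∧
    ∀ (N : Type) [TopologicalSpace N] [ChartedSpace E3 N] [IsManifold 𝓘(ℝ, E3) ∞ N]
      [MeasurableSpace N] [BorelSpace N] (U₀ : Set N) (g₀ : Ten E3 N), Mem C U₀ → Met g₀ U₀ →
      ∀ A : ℕ, ∃ (M : Type) (_ : TopologicalSpace M) (_ : ChartedSpace E3 M)
        (_ : IsManifold 𝓘(ℝ, E3) ∞ M) (_ : MeasurableSpace M) (_ : BorelSpace M)
        (g : ℝ → Ten E3 M) (b d : M → ℝ), SF g b d 0 T ∧ (∀ U t, Sl b d 0 T U t → Mem C U) ∧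
        vol (g 0) (postS b d 0) ≤ vol g₀ U₀ ∧
        (∀ a, (∀ x ∈ U₀, a ≤ Sc g₀ x) → ∀ x ∈ postS b d 0, a ≤ Sc (g 0) x) ∧
        (∀ t ∈ Ioo 0 T, vol (g t) (postS b d t) ≤ vol (g t) (preS b d t) ∧
          ∀ a ≤ 0, (∀ x ∈ preS b d t, a ≤ Sc (g t) x) → ∀ x ∈ postS b d t, a ≤ Sc (g t) x) ∧
        ∃ x ∈ preS b d T, Sc (g T) x ≤ 1 / ρ ^ 2 ∧ ∀ D ≤ A, ∀ y ∈ bl (g T) (preS b d T) x D,
          Sc (g T) y ≤ 1 / ρ ^ 2 →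
            ParB g (preS b d T) y T (c D) (c D ^ 2) (1 / c D ^ 2) ∧
              Vl (c D) (g T) (preS b d T) y (c D / 2)

end Vale.Agent.P216FB
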